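import Vale.Agent.P088.R2.H404.Spec4
import Vale.Agent.P088.R2.H269.X.X9

/-!
# P088, stage 3: the two-slot estimate in the inverted chart, statements

`RowEST` is the a priori estimate EST' in the inverted chart (touching ball = unit ball), for the
operators `div (s ∇) + v` on all of `V n`. `RowEXT` is the common extension of the two metrics in
the inverted chart. Together with SOL3 (`solKv`) and the Kelvin transform in both variables they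
give `RowSOLW`.
-/

open MeasureTheory Set
open scoped ContDiff Matrix

noncomputable section

namespace Vale.Agent.P088.R2.H269

open Vale.Agent.P088.LR Vale.Agent.P088.HY Vale.Agent.P088.HY.T3 Vale.Agent.P088.HY.T4

variable {n : ℕ}

/-- The situation in the inverted chart: two tensors near `1` and two small potentials on all of
`V n`, trivial off the ball of radius `2`, equal off the unit ball. No divergence condition. -/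
structure Ivd (K : ℕ) (ε : ℝ) (s₁ s₂ : MF n) (v₁ v₂ : V n → ℝ) : Prop where
  sm₁ : SmM s₁
  sm₂ : SmM s₂
  sy₁ : ∀ x, (s₁ x).IsSymm
  sy₂ : ∀ x, (s₂ x).IsSymm
  sv₁ : ContDiff ℝ ∞ v₁
  sv₂ : ContDiff ℝ ∞ v₂
  cl₁ : ∀ i j, Cl K ε (fun x => s₁ x i j - (1 : Matrix (Fin n) (Fin n) ℝ) i j)
  cl₂ : ∀ i j, Cl K ε (fun x => s₂ x i j - (1 : Matrix (Fin n) (Fin n) ℝ) i j)
  cv₁ : Cl K ε v₁
  cv₂ : Cl K ε v₂
  of : ∀ x ∉ Eb (0 : V n) 2, s₁ x = 1 ∧ s₂ x = 1 ∧ v₁ x = 0 ∧ v₂ x = 0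
  eq : ∀ x : V n, 1 ≤ HY.sq x → s₂ x = s₁ x ∧ v₂ x = v₁ x

/-- **EXT.** The common extension of the two transformed operators, with the bounds of the
difference (the extension is local and linear in `s - 1`). -/
def RowEXT : Prop := ∀ n : ℕ, 3 ≤ n → ∀ K : ℕ, ∃ (K' : ℕ) (C : ℝ), 0 < C ∧
  ∀ (ε : ℝ) (s₁ s₂ : MF n) (G : Set (V n)), 0 ≤ ε → ε ≤ 1 → Nrm K' ε s₁ s₂ G →
  ∃ (t₁ t₂ : MF n) (v₁ v₂ : V n → ℝ), Ivd K (C * ε) t₁ t₂ v₁ v₂ ∧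
    (∀ y ∈ Eb (0 : V n) (5 / 4), y ≠ 0 →
      t₁ y = ks s₁ y ∧ v₁ y = kv s₁ y ∧ t₂ y = ks s₂ y ∧ v₂ y = kv s₂ y) ∧
    ∀ y ∈ Ac n (1 / 22) (5 / 4), ∀ b : ℝ,
      (∀ i j, ∀ l ≤ K', ‖iteratedFDeriv ℝ l (fun x => s₂ x i j - s₁ x i j) (iv y)‖ ≤ b) →
      (∀ i j, ∀ l ≤ K, ‖iteratedFDeriv ℝ l (fun x => t₂ x i j - t₁ x i j) y‖ ≤ C * b) ∧
      ∀ l ≤ K, ‖iteratedFDeriv ℝ l (fun x => v₂ x - v₁ x) y‖ ≤ C * b

/-- The stiffness in the inverted chart. -/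
def ky (n : ℕ) (σ R kap Gs : ℝ) (y : V n) : ℝ := kap * Real.exp (R * (gy n σ y - Gs))

/-- The zone of the quasimode in the inverted chart. -/
def Zi (n : ℕ) : Set (V n) := Ac n (1 / 15) (10 / 9)

/-- The a priori estimate with the weights `W`, `w` and the constant weight `Mw` of the second
square: `P_j = e^{-W} L_j e^W`, `P_j^* = e^W L_j e^{-W}`. -/
def EstP (s₁ s₂ : MF n) (v₁ v₂ : V n → ℝ) (W w : VV n → ℝ) (Mw : ℝ) : Prop :=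
  ∀ a₁ a₂ : VV n → ℝ, ContDiff ℝ ∞ a₁ → HasCompactSupport a₁ → ContDiff ℝ ∞ a₂ →
    HasCompactSupport a₂ →
    ∫ z, w z * (a₁ z ^ 2 + a₂ z ^ 2) ≤
      ∫ z, ((QXv s₁ v₁ W a₁ z + QYv s₂ v₂ W a₂ z) ^ 2 +
        Mw * (PYv s₂ v₂ W a₁ z - PXv s₁ v₁ W a₂ z) ^ 2)

/-- The weights of EST' (normalised to be bounded at the selected point), inverted chart. -/
structure EB (s₁ s₂ : MF n) (v₁ v₂ : V n → ℝ) (σ a b c C ν R kap Gs : ℝ) (W w : VV n → ℝ) :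
    Prop where
  wt : ∃ B, 0 ≤ B ∧ Wt B W
  wc : Continuous w
  w0 : ∀ z, 0 < w z
  /-- lower bound near the diagonal -/
  W1 : ∀ x ∈ Zi n, ∀ y ∈ Zi n, ‖x - y‖ ≤ 1 / R →
    ν * R * (gy n σ x - Gs) + c * ky n σ R kap Gs x ^ 2 * ‖x - y‖ ^ 2 - C ≤ W (x, y)
  /-- upper bound very near the diagonal -/
  W2 : ∀ p ∈ Ac n (1 / 15) (100 / 99), ∀ z ∈ Metric.ball (p, p) (3 * n / (R ^ C + ky n σ R kap Gs p)),
    W z ≤ ν * max (R * (gy n σ p - Gs)) (-Real.log kap) + C * (1 + Real.log R)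
  /-- the far values -/
  W3 : ∀ x ∈ Ac n (1 / 21) (100 / 99), ∀ y ∈ Ac n (1 / 21) (10 / 99),
    W (x, y) ≤ -(c * R) ∧ W (y, x) ≤ -(c * R)
  /-- the gain where the stiffness is large -/
  w1 : ∀ x ∈ Zi n, ∀ y ∈ Zi n, ‖x - y‖ ≤ 1 / R → kap ^ (1 / 4 : ℝ) ≤ ky n σ R kap Gs x →
    c * R ^ (-C) * kap ^ a * Real.exp (-(b * R * |gy n σ x - Gs|)) ≤ w (x, y)
  /-- the gain everywhere near the diagonal -/
  w2 : ∀ x ∈ Zi n, ∀ y ∈ Zi n, ‖x - y‖ ≤ 1 / R →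
    c * R ^ (-C) * kap ^ (-b) * Real.exp (-(b * R * |gy n σ x - Gs|)) ≤ w (x, y)
  est : ∃ Mw, 0 < Mw ∧ EstP s₁ s₂ v₁ v₂ W w Mw

/-- **EST'.** The only statement wanted from the rows EP. -/
def RowEST : Prop := ∀ n : ℕ, 3 ≤ n → ∃ σ a b ν₀ : ℝ, 0 < σ ∧ σ ≤ 1 / 10 ∧ 0 < a ∧ 0 ≤ b ∧
  ∀ ν : ℝ, ν₀ ≤ ν → ∃ (K : ℕ) (ε c C η R₀ : ℝ), 0 < ε ∧ 0 < c ∧ 0 ≤ C ∧ 0 < η ∧
  ∀ (s₁ s₂ : MF n) (v₁ v₂ : V n → ℝ), Ivd K ε s₁ s₂ v₁ v₂ → ∀ R kap Gs : ℝ, R₀ ≤ R → 1 ≤ R →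
    -η ≤ Gs → Gs ≤ 0 → 1 ≤ kap → R ^ C ≤ kap → kap ≤ Real.exp (η * R) →
    (∀ y ∈ Ac n (1 / 22) 1, 1 ≤ ky n σ R kap Gs y →
      (∀ i j, ∀ l ≤ K, ‖iteratedFDeriv ℝ l (fun x => s₂ x i j - s₁ x i j) y‖ ≤
        kap ^ (-(1 / 2) : ℝ) * ky n σ R kap Gs y ^ (-(ν / 2))) ∧
      ∀ l ≤ K, ‖iteratedFDeriv ℝ l (fun x => v₂ x - v₁ x) y‖ ≤
        kap ^ (-(1 / 2) : ℝ) * ky n σ R kap Gs y ^ (-(ν / 2))) →
    ∃ W w : VV n → ℝ, EB s₁ s₂ v₁ v₂ σ a b c C ν R kap Gs W w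

end Vale.Agent.P088.R2.H269
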