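import Vale.Agent.P088.R2.H269.X.X11
import Vale.Agent.P088.R2.H354.S11

/-!
# P088, stage 3: the geometry of the inversion
-/

open MeasureTheory Set Filter
open scoped ContDiff Matrix Topology

noncomputable section

set_option linter.unusedSectionVars false

namespace Vale.Agent.P088.R2.H269

open Vale.Agent.P088.LR Vale.Agent.P088.HY Vale.Agent.P088.HY.T3 Vale.Agent.P088.HY.H437.Kel

variable {n : ℕ}

lemma ne_of_rt {x : V n} (h : 0 < √(HY.sq x)) : x ≠ 0 := by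
  rintro rfl
  simp [HY.sq] at h

lemma rt_pos {x : V n} (hx : x ≠ 0) : 0 < √(HY.sq x) := Real.sqrt_pos.2 (sq_pos hx)

lemma rt_iv {x : V n} (hx : x ≠ 0) : √(HY.sq (iv x)) = (√(HY.sq x))⁻¹ := by
  rw [sq_iv hx, Real.sqrt_inv]

lemma Ac_iv {a b a' b' : ℝ} (ha : 0 < a) {x : V n} (hx : x ∈ HY.T3.Ac n a b) (hb : b' ≤ b⁻¹)
    (ha' : a⁻¹ ≤ a') : iv x ∈ HY.T3.Ac n b' a' := by
  have h0 : 0 < √(HY.sq x) := lt_of_lt_of_le ha hx.1
  have h1 := rt_iv (ne_of_rt h0)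
  constructor
  · rw [h1]
    exact hb.trans (inv_anti₀ h0 hx.2)
  · rw [h1]
    exact (inv_anti₀ ha hx.1).trans ha'

lemma Ao_iv {a b a' b' : ℝ} (ha : 0 < a) {x : V n} (hx : x ∈ HY.T3.Ao n a b) (hb : b' ≤ b⁻¹)
    (ha' : a⁻¹ ≤ a') : iv x ∈ HY.T3.Ao n b' a' := by
  have h0 : 0 < √(HY.sq x) := lt_trans ha hx.1
  have h1 := rt_iv (ne_of_rt h0)
  constructor
  · rw [h1]
    exact lt_of_le_of_lt hb (inv_strictAnti₀ h0 hx.2)
  · rw [h1]
    exact lt_of_lt_of_le (inv_strictAnti₀ ha hx.1) ha'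

lemma sq_sub_eq (x y : V n) :
    HY.sq (x - y) = HY.sq x - 2 * (∑ j, x j * y j) + HY.sq y := by
  unfold HY.sq
  rw [Finset.mul_sum, ← Finset.sum_sub_distrib, ← Finset.sum_add_distrib]
  refine Finset.sum_congr rfl fun j _ => ?_
  simp only [Pi.sub_apply]
  ring

lemma sq_iv_sub {x y : V n} (hx : x ≠ 0) (hy : y ≠ 0) :
    HY.sq (iv x - iv y) * (HY.sq x * HY.sq y) = HY.sq (x - y) := by
  have h1 := (sq_pos hx).ne'
  have h2 := (sq_pos hy).ne'
  rw [sq_sub_eq, sq_sub_eq, sq_iv hx, sq_iv hy]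
  have h3 : ∑ j, iv x j * iv y j = (∑ j, x j * y j) * ((HY.sq x)⁻¹ * (HY.sq y)⁻¹) := by
    rw [Finset.sum_mul]
    refine Finset.sum_congr rfl fun j _ => ?_
    unfold iv
    field_simp
  rw [h3]
  field_simp
  ring

lemma nrm_le_rt (x : V n) : ‖x‖ ≤ √(HY.sq x) := by
  rw [pi_norm_le_iff_of_nonneg (Real.sqrt_nonneg _)]
  intro i
  have h1 : x i ^ 2 ≤ HY.sq x := Finset.single_le_sum (f := fun j => x j ^ 2)
    (fun j _ => sq_nonneg _) (Finset.mem_univ i)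
  rw [Real.norm_eq_abs, ← Real.sqrt_sq_eq_abs]
  exact Real.sqrt_le_sqrt h1

lemma sq_le_nrm (x : V n) : HY.sq x ≤ n * ‖x‖ ^ 2 := by
  unfold HY.sq
  calc ∑ j, x j ^ 2 ≤ ∑ _j : Fin n, ‖x‖ ^ 2 := by
        refine Finset.sum_le_sum fun j _ => ?_
        have h1 : |x j| ≤ ‖x‖ := norm_le_pi_norm x j
        rw [← sq_abs]
        exact pow_le_pow_left₀ (abs_nonneg _) h1 2
    _ = n * ‖x‖ ^ 2 := by
        rw [Finset.sum_const, Finset.card_univ, Fintype.card_fin, nsmul_eq_mul]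

lemma nrm_sq_le (x : V n) : ‖x‖ ^ 2 ≤ HY.sq x := by
  calc ‖x‖ ^ 2 ≤ √(HY.sq x) ^ 2 := pow_le_pow_left₀ (norm_nonneg _) (nrm_le_rt x) 2
    _ = HY.sq x := Real.sq_sqrt (sq_nn x)

/-- the inversion does not increase distances too much -/
lemma iv_dist_le {x y : V n} {a b : ℝ} (ha : 0 < a) (hb : 0 < b) (hx : a ≤ √(HY.sq x))
    (hy : b ≤ √(HY.sq y)) : ‖iv x - iv y‖ ≤ √n * ‖x - y‖ / (a * b) := by
  have x0 := ne_of_rt (lt_of_lt_of_le ha hx)
  have y0 := ne_of_rt (lt_of_lt_of_le hb hy)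
  have h1 := sq_iv_sub x0 y0
  have h2 : a ^ 2 ≤ HY.sq x := by
    calc a ^ 2 ≤ √(HY.sq x) ^ 2 := pow_le_pow_left₀ ha.le hx 2
      _ = HY.sq x := Real.sq_sqrt (sq_nn x)
  have h3 : b ^ 2 ≤ HY.sq y := by
    calc b ^ 2 ≤ √(HY.sq y) ^ 2 := pow_le_pow_left₀ hb.le hy 2
      _ = HY.sq y := Real.sq_sqrt (sq_nn y)
  have h4 : HY.sq (iv x - iv y) * (a ^ 2 * b ^ 2) ≤ n * ‖x - y‖ ^ 2 := by
    calc HY.sq (iv x - iv y) * (a ^ 2 * b ^ 2) ≤ HY.sq (iv x - iv y) * (HY.sq x * HY.sq y) := by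
          refine mul_le_mul_of_nonneg_left ?_ (sq_nn _)
          exact mul_le_mul h2 h3 (by positivity) (sq_nn x)
      _ = HY.sq (x - y) := h1
      _ ≤ _ := sq_le_nrm _
  have h5 : ‖iv x - iv y‖ ^ 2 ≤ (√n * ‖x - y‖ / (a * b)) ^ 2 := by
    rw [div_pow, mul_pow, Real.sq_sqrt (Nat.cast_nonneg n), le_div_iff₀ (by positivity)]
    calc ‖iv x - iv y‖ ^ 2 * (a * b) ^ 2 ≤ HY.sq (iv x - iv y) * (a * b) ^ 2 :=
          mul_le_mul_of_nonneg_right (nrm_sq_le _) (by positivity)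
      _ = HY.sq (iv x - iv y) * (a ^ 2 * b ^ 2) := by ring
      _ ≤ _ := h4
  exact (sq_le_sq₀ (norm_nonneg _) (by positivity)).1 h5

/-- the inversion does not decrease distances too much -/
lemma iv_dist_ge {x y : V n} {b : ℝ} (x0 : x ≠ 0) (y0 : y ≠ 0) (hx : √(HY.sq x) ≤ b)
    (hy : √(HY.sq y) ≤ b) : ‖x - y‖ ^ 2 ≤ n * b ^ 4 * ‖iv x - iv y‖ ^ 2 := by
  have h1 := sq_iv_sub x0 y0
  have h2 : HY.sq x ≤ b ^ 2 := by
    calc HY.sq x = √(HY.sq x) ^ 2 := (Real.sq_sqrt (sq_nn x)).symm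
      _ ≤ b ^ 2 := pow_le_pow_left₀ (Real.sqrt_nonneg _) hx 2
  have h3 : HY.sq y ≤ b ^ 2 := by
    calc HY.sq y = √(HY.sq y) ^ 2 := (Real.sq_sqrt (sq_nn y)).symm
      _ ≤ b ^ 2 := pow_le_pow_left₀ (Real.sqrt_nonneg _) hy 2
  calc ‖x - y‖ ^ 2 ≤ HY.sq (x - y) := nrm_sq_le _
    _ = HY.sq (iv x - iv y) * (HY.sq x * HY.sq y) := h1.symm
    _ ≤ (n * ‖iv x - iv y‖ ^ 2) * (b ^ 2 * b ^ 2) :=
        mul_le_mul (sq_le_nrm _) (mul_le_mul h2 h3 (sq_nn y) (by positivity))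
          (mul_nonneg (sq_nn x) (sq_nn y)) (by positivity)
    _ = _ := by ring

/-- divergence free tensors: the two forms of the operator agree -/
lemma DX_Lx {s : MF n} (hs : SmM s) {f : VV n → ℝ} {U : Set (VV n)} (hU : IsOpen U)
    (hf : ContDiffOn ℝ ∞ f U) {z : VV n} (hz : z ∈ U)
    (hd : ∀ j, ∑ i, pd i (fun y => s y i j) z.1 = 0) : DX s f z = HY.Lx s f z := by
  obtain ⟨f', f1, f2⟩ := ext_at hU hz hf
  have sc : ∀ i j, S (fun w : VV n => s w.1 i j) := fun i j => (hs i j).comp contDiff_fst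
  have e1 : DX s f z = DX s f' z := by
    rw [← Ld_aX, ← Ld_aX]
    exact (Ld_congr f2).self_of_nhds.symm
  have e2 : HY.Lx s f z = HY.Lx s f' z := by
    unfold HY.Lx
    refine Finset.sum_congr rfl fun i _ => Finset.sum_congr rfl fun j _ => ?_
    have h1 : HY.dx j f =ᶠ[𝓝 z] HY.dx j f' := by
      filter_upwards [f2.symm.eventuallyEq_nhds] with w hw
      unfold HY.dx
      rw [hw.fderiv_eq]
    unfold HY.dx at h1 ⊢
    rw [h1.fderiv_eq]
  rw [e1, e2]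
  have h1 : ∀ i j, HY.dx i (fun w => s w.1 i j * HY.dx j f' w) z =
      pd i (fun y => s y i j) z.1 * HY.dx j f' z + s z.1 i j * HY.dx i (HY.dx j f') z := by
    intro i j
    have g1 : DifferentiableAt ℝ (fun w : VV n => s w.1 i j) z := S.df (sc i j) z
    have g2 : DifferentiableAt ℝ (HY.dx j f') z := S.df (f1.dx j) z
    have g3 : HY.dx i (fun w : VV n => s w.1 i j) z = pd i (fun y => s y i j) z.1 := by
      rw [dx_sl g1 i]
    have g4 : HY.dx i (fun w => s w.1 i j * HY.dx j f' w) z =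
        s z.1 i j * HY.dx i (HY.dx j f') z + HY.dx j f' z * HY.dx i (fun w : VV n => s w.1 i j) z := by
      have h5 := g1.hasFDerivAt.mul g2.hasFDerivAt
      have h6 : fderiv ℝ (fun w => s w.1 i j * HY.dx j f' w) z =
        s z.1 i j • fderiv ℝ (HY.dx j f') z + HY.dx j f' z • fderiv ℝ (fun w : VV n => s w.1 i j) z :=
        h5.fderiv
      show fderiv ℝ (fun w => s w.1 i j * HY.dx j f' w) z (Pi.single i 1, 0) = _
      rw [h6]
      rfl
    rw [g4, g3]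
    ring
  unfold DX HY.Lx
  have h2 : ∑ i, ∑ j, HY.dx i (fun w => s w.1 i j * HY.dx j f' w) z =
      (∑ j, (∑ i, pd i (fun y => s y i j) z.1) * HY.dx j f' z)
        + ∑ i, ∑ j, s z.1 i j * HY.dx i (HY.dx j f') z := by
    simp only [h1, Finset.sum_add_distrib]
    congr 1
    rw [Finset.sum_comm]
    exact Finset.sum_congr rfl fun j _ => by rw [Finset.sum_mul]
  rw [h2]
  simp [hd]

/-- divergence free tensors: the two forms of the operator agree -/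
lemma DY_Ly {s : MF n} (hs : SmM s) {f : VV n → ℝ} {U : Set (VV n)} (hU : IsOpen U)
    (hf : ContDiffOn ℝ ∞ f U) {z : VV n} (hz : z ∈ U)
    (hd : ∀ j, ∑ i, pd i (fun y => s y i j) z.2 = 0) : DY s f z = HY.Ly s f z := by
  obtain ⟨f', f1, f2⟩ := ext_at hU hz hf
  have sc : ∀ i j, S (fun w : VV n => s w.2 i j) := fun i j => (hs i j).comp contDiff_snd
  have e1 : DY s f z = DY s f' z := by
    rw [← Ld_aY, ← Ld_aY]
    exact (Ld_congr f2).self_of_nhds.symm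
  have e2 : HY.Ly s f z = HY.Ly s f' z := by
    unfold HY.Ly
    refine Finset.sum_congr rfl fun i _ => Finset.sum_congr rfl fun j _ => ?_
    have h1 : HY.dy j f =ᶠ[𝓝 z] HY.dy j f' := by
      filter_upwards [f2.symm.eventuallyEq_nhds] with w hw
      unfold HY.dy
      rw [hw.fderiv_eq]
    unfold HY.dy at h1 ⊢
    rw [h1.fderiv_eq]
  rw [e1, e2]
  have h1 : ∀ i j, HY.dy i (fun w => s w.2 i j * HY.dy j f' w) z =
      pd i (fun y => s y i j) z.2 * HY.dy j f' z + s z.2 i j * HY.dy i (HY.dy j f') z := by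
    intro i j
    have g1 : DifferentiableAt ℝ (fun w : VV n => s w.2 i j) z := S.df (sc i j) z
    have g2 : DifferentiableAt ℝ (HY.dy j f') z := S.df (f1.dy j) z
    have g3 : HY.dy i (fun w : VV n => s w.2 i j) z = pd i (fun y => s y i j) z.2 := by
      rw [dy_sl g1 i]
    have g4 : HY.dy i (fun w => s w.2 i j * HY.dy j f' w) z =
        s z.2 i j * HY.dy i (HY.dy j f') z + HY.dy j f' z * HY.dy i (fun w : VV n => s w.2 i j) z := by
      have h5 := g1.hasFDerivAt.mul g2.hasFDerivAt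
      have h6 : fderiv ℝ (fun w => s w.2 i j * HY.dy j f' w) z =
        s z.2 i j • fderiv ℝ (HY.dy j f') z + HY.dy j f' z • fderiv ℝ (fun w : VV n => s w.2 i j) z :=
        h5.fderiv
      show fderiv ℝ (fun w => s w.2 i j * HY.dy j f' w) z (0, Pi.single i 1) = _
      rw [h6]
      rfl
    rw [g4, g3]
    ring
  unfold DY HY.Ly
  have h2 : ∑ i, ∑ j, HY.dy i (fun w => s w.2 i j * HY.dy j f' w) z =
      (∑ j, (∑ i, pd i (fun y => s y i j) z.2) * HY.dy j f' z)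
        + ∑ i, ∑ j, s z.2 i j * HY.dy i (HY.dy j f') z := by
    simp only [h1, Finset.sum_add_distrib]
    congr 1
    rw [Finset.sum_comm]
    exact Finset.sum_congr rfl fun j _ => by rw [Finset.sum_mul]
  rw [h2]
  simp [hd]

lemma DX_cg {s : MF n} {f g : VV n → ℝ} {z : VV n} (h : f =ᶠ[𝓝 z] g) : DX s f z = DX s g z := by
  rw [← Ld_aX, ← Ld_aX]
  exact (Ld_congr h).self_of_nhds

lemma DY_cg {s : MF n} {f g : VV n → ℝ} {z : VV n} (h : f =ᶠ[𝓝 z] g) : DY s f z = DY s g z := by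
  rw [← Ld_aY, ← Ld_aY]
  exact (Ld_congr h).self_of_nhds

end Vale.Agent.P088.R2.H269
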