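import Vale.Agent.P088.R2.H269.X.X12
import Vale.Agent.P088.R2.H269.X.Spec

/-!
# P088, stage 3: the corrections, transferred to the chart
-/

open MeasureTheory Set Filter
open scoped ContDiff Matrix Topology

noncomputable section

set_option linter.unusedSectionVars false

namespace Vale.Agent.P088.R2.H269

open Vale.Agent.P088.LR Vale.Agent.P088.HY Vale.Agent.P088.HY.T3 Vale.Agent.P088.HY.T4
open Vale.Agent.P088.HY.H437.Kel

variable {n : ℕ}

lemma qf_nn (z : VV n) : 0 ≤ qf z := by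
  rw [qf_eq]
  exact add_nonneg (sq_nn _) (sq_nn _)

lemma Wt.mono {B B' : ℝ} (h : B ≤ B') {W : VV n → ℝ} (hW : Wt B W) : Wt B' W := by
  have q : ∀ z : VV n, B * (1 + qf z) ≤ B' * (1 + qf z) := fun z =>
    mul_le_mul_of_nonneg_right h (by linarith [qf_nn z])
  exact ⟨hW.sm, fun z => by linarith [hW.lo z], fun i z => (hW.x1 i z).trans (q z),
    fun i z => (hW.y1 i z).trans (q z), fun i j z => (hW.xx i j z).trans (q z),
    fun i j z => (hW.xy i j z).trans (q z), fun i j z => (hW.yy i j z).trans (q z)⟩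

lemma cl_val {K : ℕ} {ε : ℝ} {f : V n → ℝ} (h : Cl K ε f) (x : V n) : |f x| ≤ ε := by
  have h1 := h 0 (Nat.zero_le _) x
  rwa [norm_iteratedFDeriv_zero, Real.norm_eq_abs] at h1

lemma cl_pd1 {K : ℕ} (hK : 1 ≤ K) {ε : ℝ} {f : V n → ℝ} (h : Cl K ε f) (x : V n) (k : Fin n) :
    |LR.pd k f x| ≤ ε := by
  have h1 := h 1 hK x
  rw [norm_iteratedFDeriv_one] at h1
  unfold LR.pd
  have h2 := (fderiv ℝ f x).le_opNorm (Pi.single k 1)
  have h3 : ‖(Pi.single k 1 : V n)‖ ≤ 1 := by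
    rw [pi_norm_le_iff_of_nonneg zero_le_one]
    intro j
    by_cases hj : j = k
    · subst hj
      simp
    · simp [hj]
  rw [Real.norm_eq_abs] at h2
  have e0 : 0 ≤ ‖fderiv ℝ f x‖ := norm_nonneg _
  calc _ ≤ ‖fderiv ℝ f x‖ * ‖(Pi.single k 1 : V n)‖ := h2
    _ ≤ ‖fderiv ℝ f x‖ * 1 := mul_le_mul_of_nonneg_left h3 e0
    _ ≤ ε := by rw [mul_one]; exact h1

lemma Tp_of {K : ℕ} (hK : 1 ≤ K) {ε : ℝ} (e1 : n * ε ≤ 1 / 2) (e2 : ε ≤ 1 / 41) {s : MF n}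
    {v : V n → ℝ} (sm : SmM s) (sy : ∀ x, (s x).IsSymm) (sv : ContDiff ℝ ∞ v)
    (cl : ∀ i j, Cl K ε (fun x => s x i j - (1 : Matrix (Fin n) (Fin n) ℝ) i j))
    (cv : Cl K ε v) (of : ∀ x ∉ Eb (0 : V n) 2, v x = 0) {B : ℝ} (hB : 2 ≤ B) :
    Tp B (1 / 2) (5 * ε) s v := by
  have e0 : 0 ≤ ε := (abs_nonneg _).trans (cl_val cv 0)
  refine ⟨sm, sy, ?_, ?_, ?_, sv, ?_, ?_⟩
  · intro x ξ
    have h1 : ∀ i j, |s x i j - (1 : Matrix (Fin n) (Fin n) ℝ) i j| ≤ ε := fun i j =>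
      cl_val (cl i j) x
    have h2 : ∑ i, ∑ j, s x i j * (ξ i * ξ j) = (∑ i, ξ i ^ 2) +
        ∑ i, ∑ j, (s x i j - (1 : Matrix (Fin n) (Fin n) ℝ) i j) * (ξ i * ξ j) := by
      have h3 : ∑ i, ξ i ^ 2 = ∑ i, ∑ j, (1 : Matrix (Fin n) (Fin n) ℝ) i j * (ξ i * ξ j) := by
        refine Finset.sum_congr rfl fun i _ => ?_
        simp [Matrix.one_apply, pow_two]
      rw [h3, ← Finset.sum_add_distrib]
      refine Finset.sum_congr rfl fun i _ => ?_
      rw [← Finset.sum_add_distrib]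
      exact Finset.sum_congr rfl fun j _ => by ring
    have h4 : |∑ i, ∑ j, (s x i j - (1 : Matrix (Fin n) (Fin n) ℝ) i j) * (ξ i * ξ j)| ≤
        n * ε * ∑ i, ξ i ^ 2 := by
      calc |∑ i, ∑ j, (s x i j - (1 : Matrix (Fin n) (Fin n) ℝ) i j) * (ξ i * ξ j)|
          ≤ ∑ i, ∑ j, ε * ((ξ i ^ 2 + ξ j ^ 2) / 2) := by
            refine (Finset.abs_sum_le_sum_abs _ _).trans (Finset.sum_le_sum fun i _ => ?_)
            refine (Finset.abs_sum_le_sum_abs _ _).trans (Finset.sum_le_sum fun j _ => ?_)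
            rw [abs_mul]
            refine mul_le_mul (h1 i j) ?_ (abs_nonneg _) e0
            rw [abs_le]
            constructor <;> nlinarith [_root_.sq_nonneg (ξ i - ξ j), _root_.sq_nonneg (ξ i + ξ j)]
        _ = n * ε * ∑ i, ξ i ^ 2 := by
            have h5 : ∀ i, ∑ j, ε * ((ξ i ^ 2 + ξ j ^ 2) / 2) =
                ε / 2 * (n * ξ i ^ 2) + ε / 2 * ∑ j, ξ j ^ 2 := by
              intro i
              rw [← Finset.mul_sum, ← Finset.sum_div, Finset.sum_add_distrib, Finset.sum_const,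
                Finset.card_univ, Fintype.card_fin, nsmul_eq_mul]
              ring
            simp only [h5]
            rw [Finset.sum_add_distrib, Finset.sum_const, Finset.card_univ, Fintype.card_fin,
              nsmul_eq_mul, ← Finset.mul_sum, ← Finset.mul_sum]
            ring
    have h6 : 0 ≤ ∑ i, ξ i ^ 2 := Finset.sum_nonneg fun _ _ => _root_.sq_nonneg _
    have h7 := (abs_le.1 h4).1
    rw [h2]
    nlinarith [mul_le_mul_of_nonneg_right e1 h6]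
  · intro x i j
    have h1 := cl_val (cl i j) x
    have h2 : |(1 : Matrix (Fin n) (Fin n) ℝ) i j| ≤ 1 := by
      rw [Matrix.one_apply]
      split <;> simp
    have h3 : s x i j = (s x i j - (1 : Matrix (Fin n) (Fin n) ℝ) i j) +
        (1 : Matrix (Fin n) (Fin n) ℝ) i j := by ring
    rw [h3]
    refine (abs_add_le _ _).trans ?_
    linarith
  · intro x i j k
    have h1 := cl_pd1 hK (cl i j) x k
    have h2 : LR.pd k (fun y => s y i j) x =
        LR.pd k (fun y => s y i j - (1 : Matrix (Fin n) (Fin n) ℝ) i j) x := by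
      unfold LR.pd
      rw [fderiv_sub_const]
    rw [h2]
    linarith
  · intro x
    have := cl_val cv x
    linarith
  · intro x
    by_cases hx : x ∈ Eb (0 : V n) 2
    · have h1 : HY.sq x < 4 := by
        have h2 : HY.sq (x - 0) < 2 ^ 2 := hx
        rw [sub_zero] at h2
        linarith
      have h3 := cl_val cv x
      have h4 := le_abs_self (v x)
      have h5 := sq_nn x
      calc v x * (1 + HY.sq x) ≤ ε * (1 + HY.sq x) :=
            mul_le_mul_of_nonneg_right (h4.trans h3) (by linarith)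
        _ ≤ ε * 5 := mul_le_mul_of_nonneg_left (by linarith) e0
        _ = 5 * ε := by ring
    · rw [of x hx, zero_mul]
      positivity

/-! ## Supports -/

/-- the punctured ball where the transformed operators are known -/
def OY (n : ℕ) : Set (V n) := {y | y ≠ 0 ∧ y ∈ Eb (0 : V n) (5 / 4)}

lemma isOpen_OY : IsOpen (OY n) := isOpen_ne.inter (isOpen_Eb _ _)

lemma Oc_iv {x : V n} (hx : x ∈ Oc n) : iv x ∈ Ao n (1 / 24) (5 / 4) :=
  Ao_iv (by norm_num) hx (by norm_num) (by norm_num)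

lemma Oc_ne {x : V n} (hx : x ∈ Oc n) : x ≠ 0 := ne_of_rt (lt_trans (by norm_num) hx.1)

lemma Ao_ne {a b : ℝ} (ha : 0 < a) {x : V n} (hx : x ∈ Ao n a b) : x ≠ 0 :=
  ne_of_rt (lt_trans ha hx.1)

lemma Ac_ne {a b : ℝ} (ha : 0 < a) {x : V n} (hx : x ∈ HY.T3.Ac n a b) : x ≠ 0 :=
  ne_of_rt (lt_of_lt_of_le ha hx.1)

lemma Ao_OY {a : ℝ} (ha : 0 < a) {x : V n} (hx : x ∈ Ao n a (5 / 4)) : x ∈ OY n :=
  ⟨Ao_ne ha hx, (mem_Eb0 (by norm_num)).2 hx.2⟩

lemma iv_zero : iv (0 : V n) = 0 := by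
  ext i
  simp [iv]

lemma Zq_iv {x : V n} (hx : x ∈ Zq n) : iv x ∈ Zi n :=
  Ac_iv (by norm_num) hx (by norm_num) (by norm_num)

lemma Zi_of_Zq {y : V n} (hy : iv y ∈ Zq n) : y ∈ Zi n := by
  by_cases h0 : y = 0
  · rw [h0, iv_zero] at hy
    exact absurd rfl (Ac_ne (by norm_num) hy)
  · have := Zq_iv hy
    rwa [iv_iv h0] at this

lemma isCompact_ZZ : IsCompact (Zi n ×ˢ Zi n) := (isCompact_Ac _ _).prod (isCompact_Ac _ _)

lemma isCompact_QQ : IsCompact (Zq n ×ˢ Zq n) := (isCompact_Ac _ _).prod (isCompact_Ac _ _)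

lemma Kel_supp {K0 : VV n → ℝ} (hs : ∀ z, K0 z ≠ 0 → z.1 ∈ Zq n ∧ z.2 ∈ Zq n) {w : VV n}
    (hw : Kel K0 w ≠ 0) : w ∈ Zi n ×ˢ Zi n := by
  have h1 : K0 (i2 w) ≠ 0 := by
    intro h
    apply hw
    unfold Kel
    rw [h]
    ring
  obtain ⟨h2, h3⟩ := hs _ h1
  exact ⟨Zi_of_Zq h2, Zi_of_Zq h3⟩

lemma Zi_ne {x : V n} (hx : x ∈ Zi n) : x ≠ 0 := Ac_ne (by norm_num) hx

lemma Zq_ne {x : V n} (hx : x ∈ Zq n) : x ≠ 0 := Ac_ne (by norm_num) hx

lemma Kel_sm {K0 : VV n → ℝ} (hK : ContDiff ℝ ∞ K0)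
    (hs : ∀ z, K0 z ≠ 0 → z.1 ∈ Zq n ∧ z.2 ∈ Zq n) :
    ContDiff ℝ ∞ (Kel K0) ∧ HasCompactSupport (Kel K0) := by
  constructor
  · rw [contDiff_iff_contDiffAt]
    intro z
    by_cases hz : Nz z
    · exact cd_Kel isOpen_univ hK.contDiffOn ⟨hz, mem_univ _⟩
    · have h1 : z ∈ (Zi n ×ˢ Zi n)ᶜ := fun h => hz ⟨Zi_ne h.1, Zi_ne h.2⟩
      have h2 : (Zi n ×ˢ Zi n)ᶜ ∈ 𝓝 z := isCompact_ZZ.isClosed.isOpen_compl.mem_nhds h1
      have h3 : Kel K0 =ᶠ[𝓝 z] fun _ => 0 := by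
        filter_upwards [h2] with w hw
        by_contra h
        exact hw (Kel_supp hs h)
      exact contDiffAt_const.congr_of_eventuallyEq h3
  · exact HasCompactSupport.intro isCompact_ZZ fun w hw => by
      by_contra h
      exact hw (Kel_supp hs h)

/-- the factor of the Kelvin transform of the first operator -/
def cK1 (w : VV n) : ℝ := (nw n w.1)⁻¹ * (nw n w.2)⁻¹ * HY.sq w.1 ^ 2

/-- the factor of the Kelvin transform of the second operator -/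
def cK2 (w : VV n) : ℝ := (nw n w.1)⁻¹ * (nw n w.2)⁻¹ * HY.sq w.2 ^ 2

lemma cK1_pos {w : VV n} (h : Nz w) : 0 < cK1 w := by
  unfold cK1
  have := nw_pos h.1
  have := nw_pos h.2
  have := sq_pos h.1
  positivity

lemma cK2_pos {w : VV n} (h : Nz w) : 0 < cK2 w := by
  unfold cK2
  have := nw_pos h.1
  have := nw_pos h.2
  have := sq_pos h.2
  positivity

/-- the data of the transfer -/
structure Kd (s : MF n) (t : MF n) (v : V n → ℝ) : Prop where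
  ss : SmM s
  sy : ∀ x, (s x).IsSymm
  st : SmM t
  he : ∀ y ∈ OY n, t y = ks s y ∧ v y = kv s y
  dv : ∀ x ∈ Eb (0 : V n) 24, ∀ j, ∑ i, pd i (fun y => s y i j) x = 0

lemma Kd.kX (hn : 3 ≤ n) {s t : MF n} {v : V n → ℝ} (h : Kd s t v) {k : VV n → ℝ}
    (hk : ContDiff ℝ ∞ k) {w : VV n} (nz : Nz w) (hw : w.1 ∈ OY n)
    (hx : (i2 w).1 ∈ Eb (0 : V n) 24) : HY.Lx s (Kel k) (i2 w) = cK1 w * DXv t v k w := by
  rw [← DX_Lx h.ss (isOpen_pre isOpen_univ) (cdo_Kel isOpen_univ hk.contDiffOn)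
    (mem_pre_i2 nz (mem_univ w)) (h.dv _ hx)]
  exact kelX hn h.ss h.sy h.st isOpen_OY h.he isOpen_Nz (fun z hz => hz) hk.contDiffOn nz hw

lemma Kd.kY (hn : 3 ≤ n) {s t : MF n} {v : V n → ℝ} (h : Kd s t v) {k : VV n → ℝ}
    (hk : ContDiff ℝ ∞ k) {w : VV n} (nz : Nz w) (hw : w.2 ∈ OY n)
    (hx : (i2 w).2 ∈ Eb (0 : V n) 24) : HY.Ly s (Kel k) (i2 w) = cK2 w * DYv t v k w := by
  rw [← DY_Ly h.ss (isOpen_pre isOpen_univ) (cdo_Kel isOpen_univ hk.contDiffOn)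
    (mem_pre_i2 nz (mem_univ w)) (h.dv _ hx)]
  exact kelY hn h.ss h.sy h.st isOpen_OY h.he isOpen_Nz (fun z hz => hz) hk.contDiffOn nz hw

lemma Lx_cg {s : MF n} {f g : VV n → ℝ} {z : VV n} (h : f =ᶠ[𝓝 z] g) :
    HY.Lx s f z = HY.Lx s g z := by
  unfold HY.Lx
  refine Finset.sum_congr rfl fun i _ => Finset.sum_congr rfl fun j _ => ?_
  have h1 : HY.dx j f =ᶠ[𝓝 z] HY.dx j g := by
    filter_upwards [h.eventuallyEq_nhds] with w hw
    unfold HY.dx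
    rw [hw.fderiv_eq]
  unfold HY.dx at h1 ⊢
  rw [h1.fderiv_eq]

lemma Ly_cg {s : MF n} {f g : VV n → ℝ} {z : VV n} (h : f =ᶠ[𝓝 z] g) :
    HY.Ly s f z = HY.Ly s g z := by
  unfold HY.Ly
  refine Finset.sum_congr rfl fun i _ => Finset.sum_congr rfl fun j _ => ?_
  have h1 : HY.dy j f =ᶠ[𝓝 z] HY.dy j g := by
    filter_upwards [h.eventuallyEq_nhds] with w hw
    unfold HY.dy
    rw [hw.fderiv_eq]
  unfold HY.dy at h1 ⊢
  rw [h1.fderiv_eq]

lemma Kel2_ev (K0 : VV n → ℝ) {z : VV n} (hz : Nz z) : K0 =ᶠ[𝓝 z] Kel (Kel K0) := by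
  filter_upwards [isOpen_Nz.mem_nhds hz] with w hw
  exact (Kel_Kel K0 hw).symm

end Vale.Agent.P088.R2.H269
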