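import Vale.Agent.P088.R2.H269.X.X13

/-!
# P088, stage 3: the corrections in the chart
-/

open MeasureTheory Set Filter
open scoped ContDiff Matrix Topology

noncomputable section

set_option linter.unusedSectionVars false

namespace Vale.Agent.P088.R2.H269

open Vale.Agent.P088.LR Vale.Agent.P088.HY Vale.Agent.P088.HY.T3 Vale.Agent.P088.HY.T4
open Vale.Agent.P088.HY.H437.Kel

variable {n : ℕ}

/-- the constant of the Kelvin transfer -/
def kap1 (n : ℕ) : ℝ := ((n + n).factorial : ℝ) * (3 * 24 ^ 2) ^ (n + n) * ((5 / 4) ^ (n - 2)) ^ 4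

/-- the constant of the Kelvin transfer -/
def kap2 (n : ℕ) : ℝ := ((n + n).factorial : ℝ) * (3 * (5 / 4) ^ 2) ^ (n + n) *
  (16 ^ (n - 2) * 16 ^ (n - 2) * 16 ^ 4) ^ 2

lemma kap1_pos (n : ℕ) : 0 < kap1 n := by
  unfold kap1
  have := Nat.factorial_pos (n + n)
  positivity

lemma kap2_pos (n : ℕ) : 0 < kap2 n := by
  unfold kap2
  have := Nat.factorial_pos (n + n)
  positivity

lemma img1 : i2 '' (Ao n (1 / 24) (5 / 4) ×ˢ Ao n (1 / 24) (5 / 4)) = Oc n ×ˢ Oc n := by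
  ext z
  constructor
  · rintro ⟨w, ⟨h1, h2⟩, rfl⟩
    exact ⟨Ao_iv (by norm_num) h1 (by norm_num) (by norm_num),
      Ao_iv (by norm_num) h2 (by norm_num) (by norm_num)⟩
  · rintro ⟨h1, h2⟩
    exact ⟨i2 z, ⟨Oc_iv h1, Oc_iv h2⟩, i2_i2 ⟨Oc_ne h1, Oc_ne h2⟩⟩

lemma img2 : i2 '' (Ao n (4 / 5) 16 ×ˢ Ao n (4 / 5) 16) =
    Ao n (1 / 16) (5 / 4) ×ˢ Ao n (1 / 16) (5 / 4) := by
  ext z
  constructor
  · rintro ⟨w, ⟨h1, h2⟩, rfl⟩
    exact ⟨Ao_iv (by norm_num) h1 (by norm_num) (by norm_num),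
      Ao_iv (by norm_num) h2 (by norm_num) (by norm_num)⟩
  · rintro ⟨h1, h2⟩
    refine ⟨i2 z, ⟨Ao_iv (by norm_num) h1 (by norm_num) (by norm_num),
      Ao_iv (by norm_num) h2 (by norm_num) (by norm_num)⟩,
      i2_i2 ⟨Ao_ne (by norm_num) h1, Ao_ne (by norm_num) h2⟩⟩

lemma nwi_le {x : V n} {b : ℝ} (h : √(HY.sq x) ≤ b) : (nw n x)⁻¹ ≤ b ^ (n - 2) := by
  unfold nw
  rw [inv_inv]
  exact pow_le_pow_left₀ (Real.sqrt_nonneg _) h _

lemma nw_le {x : V n} {b : ℝ} (hb : 0 < b) (h : b⁻¹ ≤ √(HY.sq x)) : nw n x ≤ b ^ (n - 2) := by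
  unfold nw
  rw [← inv_pow]
  have h0 : 0 < b⁻¹ := inv_pos.2 hb
  refine pow_le_pow_left₀ (inv_nonneg.2 (Real.sqrt_nonneg _)) ?_ _
  have := inv_anti₀ h0 h
  rwa [inv_inv] at this

lemma sqi_le {x : V n} {b : ℝ} (hb : 0 < b) (h : b⁻¹ ≤ √(HY.sq x)) : (HY.sq x)⁻¹ ≤ b ^ 2 := by
  have h0 : 0 < b⁻¹ := inv_pos.2 hb
  have h1 : (b⁻¹) ^ 2 ≤ HY.sq x := by
    calc (b⁻¹) ^ 2 ≤ √(HY.sq x) ^ 2 := pow_le_pow_left₀ h0.le h 2
      _ = HY.sq x := Real.sq_sqrt (sq_nn x)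
  have h2 := inv_anti₀ (by positivity) h1
  rwa [inv_pow, inv_inv] at h2

lemma ts_Lx {s : MF n} {f : VV n → ℝ} {z : VV n} (h : HY.Lx s f z ≠ 0) : z ∈ tsupport f := by
  by_contra hz
  apply h
  have h1 : f =ᶠ[𝓝 z] fun _ => 0 := notMem_tsupport_iff_eventuallyEq.1 hz
  rw [Lx_cg h1]
  unfold HY.Lx HY.dx
  simp

lemma ts_Ly {s : MF n} {f : VV n → ℝ} {z : VV n} (h : HY.Ly s f z ≠ 0) : z ∈ tsupport f := by
  by_contra hz
  apply h
  have h1 : f =ᶠ[𝓝 z] fun _ => 0 := notMem_tsupport_iff_eventuallyEq.1 hz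
  rw [Ly_cg h1]
  unfold HY.Ly HY.dy
  simp

lemma ts_DXv {s : MF n} {v : V n → ℝ} {f : VV n → ℝ} {z : VV n} (h : DXv s v f z ≠ 0) :
    z ∈ tsupport f := by
  by_contra hz
  apply h
  have h1 : f =ᶠ[𝓝 z] fun _ => 0 := notMem_tsupport_iff_eventuallyEq.1 hz
  unfold DXv
  rw [DX_cg h1, h1.self_of_nhds]
  unfold DX HY.dx
  simp

lemma ts_DYv {s : MF n} {v : V n → ℝ} {f : VV n → ℝ} {z : VV n} (h : DYv s v f z ≠ 0) :
    z ∈ tsupport f := by
  by_contra hz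
  apply h
  have h1 : f =ᶠ[𝓝 z] fun _ => 0 := notMem_tsupport_iff_eventuallyEq.1 hz
  unfold DYv
  rw [DY_cg h1, h1.self_of_nhds]
  unfold DY HY.dy
  simp

lemma sm_Lx {s : MF n} (hs : SmM s) {f : VV n → ℝ} (hf : S f) : Continuous (HY.Lx s f) := by
  unfold HY.Lx
  refine continuous_finsetSum _ fun i _ => continuous_finsetSum _ fun j _ => ?_
  exact ((hs i j).continuous.comp continuous_fst).mul ((hf.dx j).dx i).continuous

lemma sm_Ly {s : MF n} (hs : SmM s) {f : VV n → ℝ} (hf : S f) : Continuous (HY.Ly s f) := by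
  unfold HY.Ly
  refine continuous_finsetSum _ fun i _ => continuous_finsetSum _ fun j _ => ?_
  exact ((hs i j).continuous.comp continuous_snd).mul ((hf.dy j).dy i).continuous

lemma sm_DXv {s : MF n} (hs : SmM s) {v : V n → ℝ} (hv : S v) {f : VV n → ℝ} (hf : S f) :
    S (DXv s v f) := by
  have q1 : S (fun w : VV n => v w.1) := hv.comp contDiff_fst
  rw [← Lv_aX]
  exact S.Lv (sm_aX hs) q1 hf

lemma sm_DYv {s : MF n} (hs : SmM s) {v : V n → ℝ} (hv : S v) {f : VV n → ℝ} (hf : S f) :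
    S (DYv s v f) := by
  have q1 : S (fun w : VV n => v w.2) := hv.comp contDiff_snd
  rw [← Lv_aY]
  exact S.Lv (sm_aY hs) q1 hf

/-- **The transfer of the corrections.** -/
theorem solW (hn : 3 ≤ n) (hyp : RowHYP) {K : ℕ} (hK : 1 ≤ K) {ε : ℝ} (e1 : n * ε ≤ 1 / 2)
    (e2 : ε ≤ 1 / 41) {s₁ s₂ t₁ t₂ : MF n} {v₁ v₂ : V n → ℝ} (hI : Ivd K ε t₁ t₂ v₁ v₂)
    (h₁ : Kd s₁ t₁ v₁) (h₂ : Kd s₂ t₂ v₂) {W w : VV n → ℝ} (hW : ∃ B, 0 ≤ B ∧ Wt B W)
    (wc : Continuous w) (w0 : ∀ z, 0 < w z) (est : ∃ Mw, 0 < Mw ∧ EstP t₁ t₂ v₁ v₂ W w Mw)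
    (r : ℝ) :
    SolW s₁ s₂ r (fun z => W (i2 z)) (fun z => (kap1 n * kap2 n)⁻¹ * w (i2 z)) := by
  obtain ⟨B', hB', hW'⟩ := hW
  obtain ⟨Mw, hMw, est⟩ := est
  have hB2 : (2 : ℝ) ≤ max 2 B' := le_max_left _ _
  have hWt : Wt (max 2 B') W := hW'.mono (le_max_right _ _)
  have e0 : 0 ≤ ε := (abs_nonneg _).trans (cl_val hI.cv₁ 0)
  have T1 : Tp (max 2 B') (1 / 2) (5 * ε) t₁ v₁ := Tp_of hK e1 e2 hI.sm₁ hI.sy₁ hI.sv₁ hI.cl₁
    hI.cv₁ (fun x hx => (hI.of x hx).2.2.1) hB2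
  have T2 : Tp (max 2 B') (1 / 2) (5 * ε) t₂ v₂ := Tp_of hK e1 e2 hI.sm₂ hI.sy₂ hI.sv₂ hI.cl₂
    hI.cv₂ (fun x hx => (hI.of x hx).2.2.2) hB2
  intro K0 sK0 cK0 hK0
  have hsu : ∀ z, K0 z ≠ 0 → z.1 ∈ Zq n ∧ z.2 ∈ Zq n := fun z hz => ⟨(hK0 z hz).1, (hK0 z hz).2.1⟩
  obtain ⟨sk0, ck0⟩ := Kel_sm sK0 hsu
  set k0 := Kel K0 with hk0
  have tk0 : tsupport k0 ⊆ Zi n ×ˢ Zi n :=
    closure_minimal (fun z hz => Kel_supp hsu hz) isCompact_ZZ.isClosed
  have tK0 : tsupport K0 ⊆ Zq n ×ˢ Zq n :=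
    closure_minimal (fun z hz => hsu z hz) isCompact_QQ.isClosed
  obtain ⟨k1, sk1, E1, E2, I1, I2⟩ := solKv hn hyp (by linarith : (0 : ℝ) ≤ max 2 B')
    (by norm_num : (0 : ℝ) < 1 / 2) (by linarith : 0 ≤ 5 * ε) (by linarith) T1 T2 hWt wc w0
    (continuous_const (y := (1 : ℝ))) (fun _ => one_pos) (continuous_const (y := Mw))
    (fun _ => hMw) (fun _ => le_refl Mw) (by
      intro a₁ a₂ ha₁ ha₂
      have := est a₁ a₂ ha₁.s ha₁.c ha₂.s ha₂.c
      simpa only [one_mul] using this) sk0 ck0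
  simp only [div_one] at I1 I2
  set k2 : VV n → ℝ := fun z => (-1) * k1 z with hk2
  have sk2 : S k2 := contDiff_const.mul sk1
  have F1 : ∀ z, DXv t₁ v₁ k2 z = -DXv t₁ v₁ k0 z := by
    intro z
    rw [← E1]
    unfold DXv
    rw [hk2, DX_sm hI.sm₁ isOpen_univ sk1.contDiffOn (mem_univ z)]
    ring
  have F2 : ∀ z, DYv t₂ v₂ k2 z = -DYv t₂ v₂ k0 z := by
    intro z
    rw [← E2]
    unfold DYv
    rw [hk2, DY_sm hI.sm₂ isOpen_univ sk1.contDiffOn (mem_univ z)]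
    ring
  have eb24 : ∀ x ∈ Oc n, x ∈ Eb (0 : V n) 24 := fun x hx => (mem_Eb0 (by norm_num)).2 hx.2
  have ocY : ∀ x ∈ Oc n, iv x ∈ OY n := fun x hx => Ao_OY (by norm_num) (Oc_iv hx)
  refine ⟨Kel k2, ?_, ?_, ?_, ?_⟩
  · exact (cdo_Kel isOpen_univ sk2.contDiffOn).mono fun z hz =>
      ⟨⟨Oc_ne hz.1, Oc_ne hz.2⟩, mem_univ _⟩
  · intro z hz
    have nz : Nz z := ⟨Oc_ne hz.1, Oc_ne hz.2⟩
    have h1 := h₁.kX hn sk2 nz.i2 (ocY _ hz.1) (by rw [i2_i2 nz]; exact eb24 _ hz.1)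
    have h2 := h₁.kX hn sk0 nz.i2 (ocY _ hz.1) (by rw [i2_i2 nz]; exact eb24 _ hz.1)
    rw [i2_i2 nz] at h1 h2
    rw [h1, F1, Lx_cg (Kel2_ev K0 nz), h2]
    ring
  · intro z hz
    have nz : Nz z := ⟨Oc_ne hz.1, Oc_ne hz.2⟩
    have h1 := h₂.kY hn sk2 nz.i2 (ocY _ hz.2) (by rw [i2_i2 nz]; exact eb24 _ hz.2)
    have h2 := h₂.kY hn sk0 nz.i2 (ocY _ hz.2) (by rw [i2_i2 nz]; exact eb24 _ hz.2)
    rw [i2_i2 nz] at h1 h2
    rw [h1, F2, Ly_cg (Kel2_ev K0 nz), h2]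
    ring
  · -- the first change of variables
    have cW : Continuous W := hWt.sm.continuous
    have hU1 : IsOpen (Ao n (1 / 24) (5 / 4) ×ˢ Ao n (1 / 24) (5 / 4)) :=
      (isOpen_Ao _ _).prod (isOpen_Ao _ _)
    have nz1 : ∀ z ∈ Ao n (1 / 24) (5 / 4) ×ˢ Ao n (1 / 24) (5 / 4), Nz z := fun z hz =>
      ⟨Ao_ne (by norm_num) hz.1, Ao_ne (by norm_num) hz.2⟩
    have A1 := cov2 (U := Ao n (1 / 24) (5 / 4) ×ˢ Ao n (1 / 24) (5 / 4)) hU1 nz1
      (r := 24 ^ 2)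
      (fun z hz => ⟨sqi_le (by norm_num) (by have := hz.1.1; norm_num at this ⊢; exact this.le),
        sqi_le (by norm_num) (by have := hz.2.1; norm_num at this ⊢; exact this.le)⟩)
      (g := fun z => Real.exp (-(2 * W (i2 z))) * Kel k2 z ^ 2)
      (h := fun z => Real.exp (-(2 * W z)) * k1 z ^ 2) (by
        rw [img1]
        intro z hz
        have nz : Nz z := ⟨Oc_ne hz.1, Oc_ne hz.2⟩
        have c1 : ContinuousAt (fun z => W (i2 z)) z :=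
          cW.continuousAt.comp (cd_i2 nz).continuousAt
        have c2 : ContinuousAt (Kel k2) z :=
          (cd_Kel isOpen_univ sk2.contDiffOn ⟨nz, mem_univ _⟩).continuousAt
        exact (((continuousAt_const.mul c1).neg.rexp).mul (c2.pow 2)).continuousWithinAt)
      (fun z _ => by positivity) I1.integrableOn (A := ((5 / 4) ^ (n - 2)) ^ 4) (by
        intro z hz
        have nz := nz1 z hz
        rw [i2_i2 nz]
        have h1 : Kel k2 (i2 z) = (nw n z.1)⁻¹ * ((nw n z.2)⁻¹ * k2 z) := by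
          unfold Kel
          rw [i2_i2 nz]
          have a1 : nw n (i2 z).1 = (nw n z.1)⁻¹ := nw_iv nz.1
          have a2 : nw n (i2 z).2 = (nw n z.2)⁻¹ := nw_iv nz.2
          rw [a1, a2]
        have b1 := nwi_le hz.1.2.le
        have b2 := nwi_le hz.2.2.le
        have p1 : 0 ≤ (nw n z.1)⁻¹ := (inv_pos.2 (nw_pos nz.1)).le
        have p2 : 0 ≤ (nw n z.2)⁻¹ := (inv_pos.2 (nw_pos nz.2)).le
        have h2 : Kel k2 (i2 z) ^ 2 ≤ ((5 / 4) ^ (n - 2)) ^ 4 * k1 z ^ 2 := by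
          rw [h1, hk2]
          have h3 : ((nw n z.1)⁻¹ * ((nw n z.2)⁻¹ * (-1 * k1 z))) ^ 2 =
              ((nw n z.1)⁻¹ ^ 2 * (nw n z.2)⁻¹ ^ 2) * k1 z ^ 2 := by ring
          rw [h3]
          refine mul_le_mul_of_nonneg_right ?_ (_root_.sq_nonneg _)
          calc (nw n z.1)⁻¹ ^ 2 * (nw n z.2)⁻¹ ^ 2 ≤
              (((5 / 4 : ℝ) ^ (n - 2)) ^ 2) * (((5 / 4 : ℝ) ^ (n - 2)) ^ 2) :=
                mul_le_mul (pow_le_pow_left₀ p1 b1 2) (pow_le_pow_left₀ p2 b2 2) (by positivity)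
                  (by positivity)
            _ = _ := by ring
        calc Real.exp (-(2 * W z)) * Kel k2 (i2 z) ^ 2 ≤
            Real.exp (-(2 * W z)) * (((5 / 4) ^ (n - 2)) ^ 4 * k1 z ^ 2) :=
              mul_le_mul_of_nonneg_left h2 (Real.exp_pos _).le
          _ = _ := by ring)
    rw [img1] at A1
    -- the second change of variables
    set g2 : VV n → ℝ := fun z => Real.exp (-(2 * W z)) *
      (DXv t₁ v₁ k0 z ^ 2 + DYv t₂ v₂ k0 z ^ 2) / w z with hg2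
    set h2 : VV n → ℝ := fun z => Real.exp (-(2 * W (i2 z))) *
      (HY.Lx s₁ K0 z ^ 2 + HY.Ly s₂ K0 z ^ 2) / w (i2 z) with hh2
    have g2_0 : ∀ z ∉ Ao n (1 / 16) (5 / 4) ×ˢ Ao n (1 / 16) (5 / 4), g2 z = 0 := by
      intro z hz
      have h3 : z ∉ tsupport k0 := by
        intro h
        have h4 := tk0 h
        exact hz ⟨⟨lt_of_lt_of_le (by norm_num) h4.1.1, lt_of_le_of_lt h4.1.2 (by norm_num)⟩,
          ⟨lt_of_lt_of_le (by norm_num) h4.2.1, lt_of_le_of_lt h4.2.2 (by norm_num)⟩⟩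
      have h5 : DXv t₁ v₁ k0 z = 0 := by
        by_contra h
        exact h3 (ts_DXv h)
      have h6 : DYv t₂ v₂ k0 z = 0 := by
        by_contra h
        exact h3 (ts_DYv h)
      simp only [hg2]
      rw [h5, h6]
      simp
    have h2_0 : ∀ z, h2 z ≠ 0 → z ∈ Zq n ×ˢ Zq n := by
      intro z hz
      by_contra h3
      apply hz
      have h4 : z ∉ tsupport K0 := fun h => h3 (tK0 h)
      have h5 : HY.Lx s₁ K0 z = 0 := by
        by_contra h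
        exact h4 (ts_Lx h)
      have h6 : HY.Ly s₂ K0 z = 0 := by
        by_contra h
        exact h4 (ts_Ly h)
      simp only [hh2]
      rw [h5, h6]
      simp
    have h2_nn : ∀ z, 0 ≤ h2 z := fun z => by
      have := w0 (i2 z)
      simp only [hh2]
      positivity
    have h2_int : Integrable h2 := by
      rw [← integrableOn_iff_integrable_of_support_subset (s := Zq n ×ˢ Zq n) h2_0]
      refine ContinuousOn.integrableOn_compact isCompact_QQ ?_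
      intro z hz
      have nz : Nz z := ⟨Zq_ne hz.1, Zq_ne hz.2⟩
      have c1 : ContinuousAt (fun z => W (i2 z)) z := cW.continuousAt.comp (cd_i2 nz).continuousAt
      have c2 : ContinuousAt (fun z => w (i2 z)) z := wc.continuousAt.comp (cd_i2 nz).continuousAt
      have c3 : Continuous (fun z => HY.Lx s₁ K0 z ^ 2 + HY.Ly s₂ K0 z ^ 2) :=
        ((sm_Lx h₁.ss sK0).pow 2).add ((sm_Ly h₂.ss sK0).pow 2)
      exact ((((continuousAt_const.mul c1).neg.rexp).mul c3.continuousAt).div c2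
        (w0 _).ne').continuousWithinAt
    have hU2 : IsOpen (Ao n (4 / 5) 16 ×ˢ Ao n (4 / 5) 16) := (isOpen_Ao _ _).prod (isOpen_Ao _ _)
    have nz2 : ∀ z ∈ Ao n (4 / 5) 16 ×ˢ Ao n (4 / 5) 16, Nz z := fun z hz =>
      ⟨Ao_ne (by norm_num) hz.1, Ao_ne (by norm_num) hz.2⟩
    have g2_c : Continuous g2 := by
      refine Continuous.div ?_ wc fun z => (w0 z).ne'
      exact ((continuous_const.mul cW).neg.rexp).mul
        (((sm_DXv hI.sm₁ hI.sv₁ sk0).continuous.pow 2).add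
          ((sm_DYv hI.sm₂ hI.sv₂ sk0).continuous.pow 2))
    have A2 := cov2 (U := Ao n (4 / 5) 16 ×ˢ Ao n (4 / 5) 16) hU2 nz2
      (r := (5 / 4) ^ 2)
      (fun z hz => ⟨sqi_le (by norm_num) (by have := hz.1.1; norm_num at this ⊢; exact this.le),
        sqi_le (by norm_num) (by have := hz.2.1; norm_num at this ⊢; exact this.le)⟩)
      (g := g2) (h := h2) g2_c.continuousOn
      (fun z _ => by
        have := w0 (i2 z)
        simp only [hg2]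
        positivity) h2_int.integrableOn
      (A := (16 ^ (n - 2) * 16 ^ (n - 2) * 16 ^ 4) ^ 2) (by
        intro z hz
        have nz := nz2 z hz
        have zo1 : z.1 ∈ Oc n := ⟨hz.1.1, lt_trans hz.1.2 (by norm_num)⟩
        have zo2 : z.2 ∈ Oc n := ⟨hz.2.1, lt_trans hz.2.2 (by norm_num)⟩
        have b1 := h₁.kX hn sk0 nz.i2 (ocY _ zo1) (by rw [i2_i2 nz]; exact eb24 _ zo1)
        have b2 := h₂.kY hn sk0 nz.i2 (ocY _ zo2) (by rw [i2_i2 nz]; exact eb24 _ zo2)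
        rw [i2_i2 nz, ← Lx_cg (Kel2_ev K0 nz)] at b1
        rw [i2_i2 nz, ← Ly_cg (Kel2_ev K0 nz)] at b2
        set u := i2 z with hu
        have nzu : Nz u := nz.i2
        have u1 : (16 : ℝ)⁻¹ ≤ √(HY.sq u.1) := by
          have : u.1 = iv z.1 := rfl
          rw [this, rt_iv nz.1]
          exact inv_anti₀ (rt_pos nz.1) hz.1.2.le
        have u2 : (16 : ℝ)⁻¹ ≤ √(HY.sq u.2) := by
          have : u.2 = iv z.2 := rfl
          rw [this, rt_iv nz.2]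
          exact inv_anti₀ (rt_pos nz.2) hz.2.2.le
        have n1 := nw_le (by norm_num) u1
        have n2 := nw_le (by norm_num) u2
        have s1 := sqi_le (by norm_num) u1
        have s2 := sqi_le (by norm_num) u2
        have p1 := nw_pos nzu.1
        have p2 := nw_pos nzu.2
        have q1 := sq_pos nzu.1
        have q2 := sq_pos nzu.2
        have gen : ∀ {q L D : ℝ}, 0 < q → q⁻¹ ≤ 16 ^ 2 →
            L = (nw n u.1)⁻¹ * (nw n u.2)⁻¹ * q ^ 2 * D →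
            D ^ 2 ≤ (16 ^ (n - 2) * 16 ^ (n - 2) * 16 ^ 4) ^ 2 * L ^ 2 := by
          intro q L D hq hq2 hL
          have d1 : D = (nw n u.1 * nw n u.2 * q⁻¹ ^ 2) * L := by
            rw [hL]
            field_simp
          rw [d1, mul_pow]
          refine mul_le_mul_of_nonneg_right ?_ (_root_.sq_nonneg _)
          refine pow_le_pow_left₀ (by positivity) ?_ 2
          refine mul_le_mul (mul_le_mul n1 n2 p2.le (by positivity)) ?_ (by positivity)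
            (by positivity)
          calc q⁻¹ ^ 2 ≤ ((16 : ℝ) ^ 2) ^ 2 := pow_le_pow_left₀ (inv_pos.2 hq).le hq2 2
            _ = 16 ^ 4 := by ring
        have d1 := gen q1 s1 b1
        have d2 := gen q2 s2 b2
        simp only [hg2, hh2]
        have hw := w0 u
        rw [← mul_div_assoc, ← hu]
        refine div_le_div_of_nonneg_right ?_ hw.le
        calc Real.exp (-(2 * W u)) * (DXv t₁ v₁ k0 u ^ 2 + DYv t₂ v₂ k0 u ^ 2) ≤
            Real.exp (-(2 * W u)) * ((16 ^ (n - 2) * 16 ^ (n - 2) * 16 ^ 4) ^ 2 * HY.Lx s₁ K0 z ^ 2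
              + (16 ^ (n - 2) * 16 ^ (n - 2) * 16 ^ 4) ^ 2 * HY.Ly s₂ K0 z ^ 2) :=
              mul_le_mul_of_nonneg_left (add_le_add d1 d2) (Real.exp_pos _).le
          _ = _ := by ring)
    rw [img2] at A2
    refine ⟨A1.1, A1.2.trans ?_⟩
    have k1p := kap1_pos n
    have k2p := kap2_pos n
    have B1 : ∫ z in Ao n (1 / 24) (5 / 4) ×ˢ Ao n (1 / 24) (5 / 4),
        Real.exp (-(2 * W z)) * k1 z ^ 2 ≤ ∫ z, Real.exp (-(2 * W z)) * k1 z ^ 2 :=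
      setIntegral_le_integral I1 (Eventually.of_forall fun z => by positivity)
    have B2 : ∫ z, g2 z = ∫ z in Ao n (1 / 16) (5 / 4) ×ˢ Ao n (1 / 16) (5 / 4), g2 z :=
      (setIntegral_eq_integral_of_forall_compl_eq_zero g2_0).symm
    have B3 : ∫ z in Ao n (4 / 5) 16 ×ˢ Ao n (4 / 5) 16, h2 z ≤ ∫ z, h2 z :=
      setIntegral_le_integral h2_int (Eventually.of_forall h2_nn)
    have B4 : ∫ z, Real.exp (-(2 * W (i2 z))) * (HY.Lx s₁ K0 z ^ 2 + HY.Ly s₂ K0 z ^ 2) /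
        ((kap1 n * kap2 n)⁻¹ * w (i2 z)) = kap1 n * kap2 n * ∫ z, h2 z := by
      rw [← integral_const_mul]
      refine integral_congr_ae (Eventually.of_forall fun z => ?_)
      have := w0 (i2 z)
      simp only [hh2]
      field_simp
    rw [B4]
    have C1 : ((n + n).factorial : ℝ) * (3 * 24 ^ 2) ^ (n + n) * ((5 / 4) ^ (n - 2)) ^ 4 =
        kap1 n := rfl
    have C2 : ((n + n).factorial : ℝ) * (3 * (5 / 4) ^ 2) ^ (n + n) *
      (16 ^ (n - 2) * 16 ^ (n - 2) * 16 ^ 4) ^ 2 = kap2 n := rfl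
    rw [C1]
    have D2 := A2.2
    rw [C2] at D2
    calc kap1 n * ∫ z in Ao n (1 / 24) (5 / 4) ×ˢ Ao n (1 / 24) (5 / 4),
        Real.exp (-(2 * W z)) * k1 z ^ 2 ≤ kap1 n * ∫ z, g2 z :=
          mul_le_mul_of_nonneg_left (B1.trans I2) k1p.le
      _ ≤ kap1 n * (kap2 n * ∫ z, h2 z) := by
          refine mul_le_mul_of_nonneg_left ?_ k1p.le
          rw [B2]
          exact D2.trans (mul_le_mul_of_nonneg_left B3 k2p.le)
      _ = _ := by ring

end Vale.Agent.P088.R2.H269
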