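import Vale.Agent.P088.R2.H269.X.X14

/-!
# P088, stage 3: the adapter from the inverted chart to the chart
-/

open MeasureTheory Set Filter
open scoped ContDiff Matrix Topology

noncomputable section

set_option linter.unusedSectionVars false

namespace Vale.Agent.P088.R2.H269

open Vale.Agent.P088.LR Vale.Agent.P088.HY Vale.Agent.P088.HY.T3 Vale.Agent.P088.HY.T4
open Vale.Agent.P088.HY.H437.Kel

variable {n : ℕ}

lemma Ivd.mono {K K' : ℕ} (hK : K ≤ K') {ε ε' : ℝ} (he : ε' ≤ ε) {s₁ s₂ : MF n} {v₁ v₂ : V n → ℝ}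
    (h : Ivd K' ε' s₁ s₂ v₁ v₂) : Ivd K ε s₁ s₂ v₁ v₂ :=
  ⟨h.sm₁, h.sm₂, h.sy₁, h.sy₂, h.sv₁, h.sv₂,
    fun i j l hl x => (h.cl₁ i j l (hl.trans hK) x).trans he,
    fun i j l hl x => (h.cl₂ i j l (hl.trans hK) x).trans he,
    fun l hl x => (h.cv₁ l (hl.trans hK) x).trans he,
    fun l hl x => (h.cv₂ l (hl.trans hK) x).trans he, h.of, h.eq⟩

lemma Nrm.mono {K K' : ℕ} (hK : K ≤ K') {ε ε' : ℝ} (he : ε' ≤ ε) {s₁ s₂ : MF n} {G : Set (V n)}
    (h : Nrm K' ε' s₁ s₂ G) : Nrm K ε s₁ s₂ G :=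
  ⟨h.oG, h.b1, h.sm₁, h.sm₂, h.sy₁, h.sy₂,
    fun i j l hl x => (h.cl₁ i j l (hl.trans hK) x).trans he,
    fun i j l hl x => (h.cl₂ i j l (hl.trans hK) x).trans he, h.of₁, h.of₂, h.dv₁, h.dv₂, h.eq⟩

lemma kk_ky (σ R kap Gs : ℝ) (x : V n) : kk n σ R kap Gs x = ky n σ R kap Gs (iv x) := rfl

lemma gx_iv {σ : ℝ} {y : V n} (hy : y ≠ 0) : gx n σ (iv y) = gy n σ y := by
  unfold gx
  rw [iv_iv hy]

lemma kk_iv {σ R kap Gs : ℝ} {y : V n} (hy : y ≠ 0) :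
    kk n σ R kap Gs (iv y) = ky n σ R kap Gs y := by
  unfold kk ky
  rw [gx_iv hy]

/-- the numbers of the adapter -/
lemma num_w {c κ R C C' X : ℝ} (hκ : 0 < κ) (hc : 0 < c) (hR : 1 ≤ R) (hC : C ≤ C') (hX : 0 ≤ X)
    {c' w : ℝ} (hc' : c' ≤ c * κ) (h : c * R ^ (-C) * X ≤ w) : c' * R ^ (-C') * X ≤ κ * w := by
  have h1 : R ^ (-C') ≤ R ^ (-C) := Real.rpow_le_rpow_of_exponent_le hR (by linarith)
  have h2 : 0 < R ^ (-C') := Real.rpow_pos_of_pos (by linarith) _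
  have h3 : 0 < R ^ (-C) := Real.rpow_pos_of_pos (by linarith) _
  calc c' * R ^ (-C') * X ≤ (c * κ) * R ^ (-C) * X := by
        refine mul_le_mul_of_nonneg_right ?_ hX
        exact mul_le_mul hc' h1 h2.le (by positivity)
    _ = κ * (c * R ^ (-C) * X) := by ring
    _ ≤ κ * w := mul_le_mul_of_nonneg_left h hκ.le

/-- **WB from EB.** -/
theorem wb_of (hn : 3 ≤ n) (hyp : RowHYP) {K : ℕ} (hK : 1 ≤ K) {ε : ℝ} (e1 : n * ε ≤ 1 / 2)
    (e2 : ε ≤ 1 / 41) {s₁ s₂ t₁ t₂ : MF n} {v₁ v₂ : V n → ℝ} (hI : Ivd K ε t₁ t₂ v₁ v₂)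
    (h₁ : Kd s₁ t₁ v₁) (h₂ : Kd s₂ t₂ v₂) {σ a b c C ν R kap Gs : ℝ} {W w : VV n → ℝ}
    (h : EB t₁ t₂ v₁ v₂ σ a b c C ν R kap Gs W w) (hc : 0 < c)
    (hR : 200 * (n + 1) ≤ R) (hk : 0 ≤ kap) {c' C' : ℝ}
    (hC' : max (C + 2) 2 ≤ C') (hc0 : 0 < c') (hc1 : c' ≤ c * (kap1 n * kap2 n)⁻¹)
    (hc2 : c' * (n * 15 ^ 4) ≤ c) :
    WB s₁ s₂ σ a b c' C' ν R kap Gs (fun z => W (i2 z))
      (fun z => (kap1 n * kap2 n)⁻¹ * w (i2 z)) := by
  have n1 : (3 : ℝ) ≤ n := by exact_mod_cast hn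
  have hR1 : (800 : ℝ) ≤ R := by nlinarith
  have hR0 : (1 : ℝ) ≤ R := by linarith
  have hCC : C + 2 ≤ C' := (le_max_left _ _).trans hC'
  have hC2 : 2 ≤ C' := (le_max_right _ _).trans hC'
  have κp : 0 < (kap1 n * kap2 n)⁻¹ := inv_pos.2 (mul_pos (kap1_pos n) (kap2_pos n))
  have hcc : c' ≤ c := by nlinarith
  have cW : Continuous W := by
    obtain ⟨B, _, hB⟩ := h.wt
    exact hB.sm.continuous
  have kyn : ∀ y : V n, 0 ≤ ky n σ R kap Gs y := fun y => mul_nonneg hk (Real.exp_pos _).le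
  have sn : √(n : ℝ) ≤ n := Real.sqrt_le_iff.2 ⟨by linarith, by nlinarith⟩
  have cl : ∀ x ∈ Zq n, ∀ y ∈ Zq n, ‖x - y‖ ≤ 1 / R ^ 2 → ‖iv x - iv y‖ ≤ 1 / R := by
    intro x hx y hy hxy
    have h1 := iv_dist_le (by norm_num) (by norm_num) hx.1 hy.1
    refine h1.trans ?_
    rw [div_le_div_iff₀ (by norm_num) (by linarith)]
    have h2 : ‖x - y‖ * R ^ 2 ≤ 1 := by
      rwa [le_div_iff₀ (by positivity)] at hxy
    have h3 : ‖x - y‖ * R ≤ 1 / R := by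
      rw [le_div_iff₀ (by linarith)]
      calc ‖x - y‖ * R * R = ‖x - y‖ * R ^ 2 := by ring
        _ ≤ 1 := h2
    have h4 : (n : ℝ) * (1 / R) ≤ 1 / 200 := by
      rw [mul_one_div, div_le_div_iff₀ (by linarith) (by norm_num)]
      nlinarith
    calc √(n : ℝ) * ‖x - y‖ * R = √(n : ℝ) * (‖x - y‖ * R) := by ring
      _ ≤ n * (1 / R) := mul_le_mul sn h3 (by positivity) (by positivity)
      _ ≤ 1 / 200 := h4
      _ ≤ _ := by norm_num
  refine ⟨?_, ?_, ?_, ?_, ?_, ?_, ?_, ?_, ?_⟩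
  · intro z hz
    exact (cW.continuousAt.comp (cd_i2 ⟨Oc_ne hz.1, Oc_ne hz.2⟩).continuousAt).continuousWithinAt
  · intro z hz
    exact (continuousAt_const.mul (h.wc.continuousAt.comp
      (cd_i2 ⟨Oc_ne hz.1, Oc_ne hz.2⟩).continuousAt)).continuousWithinAt
  · intro z _
    exact mul_pos κp (h.w0 _)
  · -- W1
    intro x hx y hy hxy
    have h1 := h.W1 (iv x) (Zq_iv hx) (iv y) (Zq_iv hy) (cl x hx y hy hxy)
    have h2 := iv_dist_ge (Zq_ne hx) (Zq_ne hy) hx.2 hy.2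
    have h3 : c' * kk n σ R kap Gs x ^ 2 * ‖x - y‖ ^ 2 ≤
        c * ky n σ R kap Gs (iv x) ^ 2 * ‖iv x - iv y‖ ^ 2 := by
      rw [kk_ky]
      calc c' * ky n σ R kap Gs (iv x) ^ 2 * ‖x - y‖ ^ 2 ≤
          c' * ky n σ R kap Gs (iv x) ^ 2 * (n * 15 ^ 4 * ‖iv x - iv y‖ ^ 2) :=
            mul_le_mul_of_nonneg_left h2 (by positivity)
        _ = (c' * (n * 15 ^ 4)) * (ky n σ R kap Gs (iv x) ^ 2 * ‖iv x - iv y‖ ^ 2) := by ring
        _ ≤ c * (ky n σ R kap Gs (iv x) ^ 2 * ‖iv x - iv y‖ ^ 2) :=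
            mul_le_mul_of_nonneg_right hc2 (by positivity)
        _ = _ := by ring
    show ν * R * (gy n σ (iv x) - Gs) + c' * kk n σ R kap Gs x ^ 2 * ‖x - y‖ ^ 2 - C' ≤
      W (iv x, iv y)
    linarith
  · -- W2
    intro p hp z hz
    have hkk : 0 ≤ kk n σ R kap Gs p := kyn _
    have rc0 : 0 < R ^ C := Real.rpow_pos_of_pos (by linarith) _
    have rc1 : R ^ 2 ≤ R ^ C' := by
      calc R ^ 2 = R ^ (2 : ℝ) := by norm_num
        _ ≤ _ := Real.rpow_le_rpow_of_exponent_le hR0 hC2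
    have rc2 : R ^ C ≤ R ^ C' := Real.rpow_le_rpow_of_exponent_le hR0 (by linarith)
    set ρ := 2 / (R ^ C' + kk n σ R kap Gs p) with hρ
    have hρ0 : 0 ≤ ρ := by positivity
    have hρ1 : ρ ≤ 2 / R ^ 2 := by
      rw [hρ]
      exact div_le_div_of_nonneg_left (by norm_num) (by positivity) (by linarith)
    have hρ2 : (n + 1) * ρ ≤ 1 / 100 := by
      have h1 : (n + 1) * ρ ≤ (n + 1) * (2 / R ^ 2) := mul_le_mul_of_nonneg_left hρ1 (by positivity)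
      refine h1.trans ?_
      rw [mul_div_assoc', div_le_div_iff₀ (by positivity) (by norm_num)]
      nlinarith
    have dz : dist z (p, p) < ρ := hz
    rw [Prod.dist_eq] at dz
    have d1 : dist z.1 p < ρ := lt_of_le_of_lt (le_max_left _ _) dz
    have d2 : dist z.2 p < ρ := lt_of_le_of_lt (le_max_right _ _) dz
    have one : ∀ q : V n, dist q p < ρ →
        dist (iv q) (iv p) < 3 * n / (R ^ C + ky n σ R kap Gs (iv p)) := by
      intro q hq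
      have h1 := (rt_ball hρ0 (Metric.mem_ball.2 hq)).1
      have h2 : (98 / 100 : ℝ) ≤ √(HY.sq q) := by
        have := hp.1
        linarith
      have h3 := iv_dist_le (by norm_num) (by norm_num) h2 hp.1
      rw [dist_eq_norm] at hq ⊢
      refine lt_of_le_of_lt h3 ?_
      have h4 : √(n : ℝ) * ‖q - p‖ / (98 / 100 * (99 / 100)) ≤ n * (21 / 20 * ρ) := by
        have h5 : √(n : ℝ) * ‖q - p‖ ≤ n * ρ := mul_le_mul sn hq.le (norm_nonneg _) (by positivity)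
        have h6 : 0 ≤ √(n : ℝ) * ‖q - p‖ := by positivity
        have h7 : 0 ≤ (n : ℝ) * ρ := by positivity
        rw [div_le_iff₀ (by norm_num)]
        nlinarith
      refine lt_of_le_of_lt h4 ?_
      have h8 : ρ ≤ 2 / (R ^ C + ky n σ R kap Gs (iv p)) := by
        rw [hρ, kk_ky]
        exact div_le_div_of_nonneg_left (by norm_num) (by have := kyn (iv p); positivity)
          (by linarith)
      have h9 : 0 < R ^ C + ky n σ R kap Gs (iv p) := by have := kyn (iv p); positivity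
      calc (n : ℝ) * (21 / 20 * ρ) ≤ n * (21 / 20 * (2 / (R ^ C + ky n σ R kap Gs (iv p)))) := by
            gcongr
        _ = (21 / 10 * n) / (R ^ C + ky n σ R kap Gs (iv p)) := by ring
        _ < _ := by
            refine div_lt_div_of_pos_right ?_ h9
            linarith
    have hi : iv p ∈ HY.T3.Ac n (1 / 15) (100 / 99) :=
      Ac_iv (by norm_num) hp (by norm_num) (by norm_num)
    have hz' : i2 z ∈ Metric.ball (iv p, iv p) (3 * n / (R ^ C + ky n σ R kap Gs (iv p))) := by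
      rw [Metric.mem_ball, Prod.dist_eq]
      exact max_lt (one _ d1) (one _ d2)
    have h1 := h.W2 (iv p) hi (i2 z) hz'
    show W (i2 z) ≤ ν * max (R * (gy n σ (iv p) - Gs)) (-Real.log kap) + C' * (1 + Real.log R)
    have h2 : C * (1 + Real.log R) ≤ C' * (1 + Real.log R) :=
      mul_le_mul_of_nonneg_right (by linarith) (by have := Real.log_nonneg hR0; linarith)
    linarith
  · -- W3
    intro x hx y hy
    have h1 := h.W3 (iv x) (Ac_iv (by norm_num) hx (by norm_num) (by norm_num)) (iv y)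
      (Ac_iv (by norm_num) hy (by norm_num) (by norm_num))
    have h2 : -(c * R) ≤ -(c' * R) := by nlinarith
    exact ⟨h1.1.trans h2, h1.2.trans h2⟩
  · -- w1
    intro x hx y hy hxy hg
    have h1 := h.w1 (iv x) (Zq_iv hx) (iv y) (Zq_iv hy) (cl x hx y hy hxy) hg
    rw [mul_assoc (c * R ^ (-C))] at h1
    have h2 := num_w κp hc hR0 (by linarith : C ≤ C')
      (mul_nonneg (Real.rpow_nonneg hk _) (Real.exp_pos _).le) hc1 h1
    rw [← mul_assoc] at h2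
    exact h2
  · -- w2
    intro x hx y hy hxy
    have h1 := h.w2 (iv x) (Zq_iv hx) (iv y) (Zq_iv hy) (cl x hx y hy hxy)
    rw [mul_assoc (c * R ^ (-C))] at h1
    have h2 := num_w κp hc hR0 (by linarith : C ≤ C')
      (mul_nonneg (Real.rpow_nonneg hk _) (Real.exp_pos _).le) hc1 h1
    rw [← mul_assoc] at h2
    exact h2
  · exact solW hn hyp hK e1 e2 hI h₁ h₂ h.wt h.wc h.w0 h.est _

/-- **The adapter.** -/
theorem rowSOLW (hyp : RowHYP) (hX : RowEXT) (hE : RowEST) : RowSOLW := by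
  intro n hn
  obtain ⟨σ, a, b, ν₀, hσ, hσ1, ha, hb, hE⟩ := hE n hn
  refine ⟨σ, a, b, ν₀, hσ, hσ1, ha, hb, fun ν hν => ?_⟩
  obtain ⟨K, ε, c, C, η, R₀, hε, hc, hC, hη, hE⟩ := hE ν hν
  obtain ⟨K', Ce, hCe, hX⟩ := hX n hn (max K 1)
  have n1 : (3 : ℝ) ≤ n := by exact_mod_cast hn
  -- the constants
  have n0 : (0 : ℝ) < n := by linarith
  set ε₁ : ℝ := min ε (min (1 / (2 * n)) (1 / 41)) with hε₁
  have ε₁p : 0 < ε₁ := lt_min hε (lt_min (by positivity) (by norm_num))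
  set ε₂ : ℝ := min 1 (ε₁ / Ce) with hε₂
  have ε₂p : 0 < ε₂ := lt_min one_pos (div_pos ε₁p hCe)
  have hε₂1 : Ce * ε₂ ≤ ε₁ := by
    calc Ce * ε₂ ≤ Ce * (ε₁ / Ce) := mul_le_mul_of_nonneg_left (min_le_right _ _) hCe.le
      _ = ε₁ := by field_simp
  have κp : 0 < (kap1 n * kap2 n)⁻¹ := inv_pos.2 (mul_pos (kap1_pos n) (kap2_pos n))
  set c' : ℝ := c * min (kap1 n * kap2 n)⁻¹ (1 / (n * 15 ^ 4)) with hc'
  have hm : 0 < min (kap1 n * kap2 n)⁻¹ (1 / (n * 15 ^ 4) : ℝ) := lt_min κp (by positivity)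
  refine ⟨K', ε₂, c', C + 2, η, max (max R₀ (200 * (n + 1))) (Ce ^ 2), ε₂p, mul_pos hc hm,
    by linarith, hη, ?_⟩
  intro s₁ s₂ G hN R kap Gs hR hR1 hG1 hG2 hk1 hk2 hk3 hd
  obtain ⟨t₁, t₂, v₁, v₂, hI, heq, hdf⟩ := hX ε₂ s₁ s₂ G ε₂p.le (min_le_left _ _) hN
  have hI1 : Ivd (max K 1) ε₁ t₁ t₂ v₁ v₂ := hI.mono le_rfl hε₂1
  have hI2 : Ivd K ε t₁ t₂ v₁ v₂ := hI1.mono (le_max_left _ _) (min_le_left _ _)
  have hRa : R₀ ≤ R := (le_max_left _ _).trans ((le_max_left _ _).trans hR)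
  have hRb : 200 * ((n : ℝ) + 1) ≤ R := (le_max_right _ _).trans ((le_max_left _ _).trans hR)
  have hRc : Ce ^ 2 ≤ R := (le_max_right _ _).trans hR
  have hk0 : 0 < kap := by linarith
  have hkR : R ≤ kap := by
    calc R = R ^ (1 : ℝ) := (Real.rpow_one R).symm
      _ ≤ R ^ (C + 2) := Real.rpow_le_rpow_of_exponent_le hR1 (by linarith)
      _ ≤ kap := hk2
  have hkC : R ^ C ≤ kap := (Real.rpow_le_rpow_of_exponent_le hR1 (by linarith)).trans hk2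
  have hsm : Ce * kap⁻¹ ≤ kap ^ (-(1 / 2) : ℝ) := by
    have h1 : Ce ≤ kap ^ (1 / 2 : ℝ) := by
      rw [← Real.sqrt_eq_rpow]
      exact Real.le_sqrt_of_sq_le (hRc.trans hkR)
    have h2 : kap⁻¹ = kap ^ (-(1 / 2) : ℝ) * kap ^ (-(1 / 2) : ℝ) := by
      rw [← Real.rpow_add hk0]
      norm_num [Real.rpow_neg_one]
    have h3 : kap ^ (1 / 2 : ℝ) * kap ^ (-(1 / 2) : ℝ) = 1 := by
      rw [← Real.rpow_add hk0]
      norm_num
    have h4 : 0 < kap ^ (-(1 / 2) : ℝ) := Real.rpow_pos_of_pos hk0 _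
    calc Ce * kap⁻¹ = (Ce * kap ^ (-(1 / 2) : ℝ)) * kap ^ (-(1 / 2) : ℝ) := by rw [h2]; ring
      _ ≤ (kap ^ (1 / 2 : ℝ) * kap ^ (-(1 / 2) : ℝ)) * kap ^ (-(1 / 2) : ℝ) :=
          mul_le_mul_of_nonneg_right (mul_le_mul_of_nonneg_right h1 h4.le) h4.le
      _ = _ := by rw [h3, one_mul]
  obtain ⟨W, w, hW⟩ := hE t₁ t₂ v₁ v₂ hI2 R kap Gs hRa hR1 hG1 hG2 hk1 hkC hk3 (by
    intro y hy h1
    have y0 : y ≠ 0 := Ac_ne (by norm_num) hy
    have hy' : y ∈ HY.T3.Ac n (1 / 22) (5 / 4) := ⟨hy.1, hy.2.trans (by norm_num)⟩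
    have hiv : iv y ∈ HY.T3.Ac n (4 / 5) 22 := Ac_iv (by norm_num) hy (by norm_num) (by norm_num)
    have hq : 0 ≤ ky n σ R kap Gs y ^ (-(ν / 2)) :=
      Real.rpow_nonneg (by linarith) _
    obtain ⟨d1, d2⟩ := hdf y hy' (kap⁻¹ * ky n σ R kap Gs y ^ (-(ν / 2))) (by
      intro i j l hl
      have := hd i j l hl (iv y) hiv (by rw [kk_iv y0]; exact h1)
      rwa [kk_iv y0] at this)
    have hfin : Ce * (kap⁻¹ * ky n σ R kap Gs y ^ (-(ν / 2))) ≤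
        kap ^ (-(1 / 2) : ℝ) * ky n σ R kap Gs y ^ (-(ν / 2)) := by
      rw [← mul_assoc]
      exact mul_le_mul_of_nonneg_right hsm hq
    exact ⟨fun i j l hl => (d1 i j l (hl.trans (le_max_left _ _))).trans hfin,
      fun l hl => (d2 l (hl.trans (le_max_left _ _))).trans hfin⟩)
  have K1 : Kd s₁ t₁ v₁ := ⟨hN.sm₁, hN.sy₁, hI.sm₁, fun y hy => by
    obtain ⟨q1, q2, _, _⟩ := heq y hy.2 hy.1
    exact ⟨q1, q2⟩, hN.dv₁⟩
  have K2 : Kd s₂ t₂ v₂ := ⟨hN.sm₂, hN.sy₂, hI.sm₂, fun y hy => by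
    obtain ⟨_, _, q1, q2⟩ := heq y hy.2 hy.1
    exact ⟨q1, q2⟩, hN.dv₂⟩
  have e1 : (n : ℝ) * ε₁ ≤ 1 / 2 := by
    calc (n : ℝ) * ε₁ ≤ n * (1 / (2 * n)) :=
          mul_le_mul_of_nonneg_left ((min_le_right _ _).trans (min_le_left _ _)) n0.le
      _ = 1 / 2 := by field_simp
  have e2 : ε₁ ≤ 1 / 41 := (min_le_right _ _).trans (min_le_right _ _)
  refine ⟨_, _, wb_of hn hyp (le_max_right K 1) e1 e2 hI1 K1 K2 hW hc hRb hk0.le ?_
    (mul_pos hc hm) ?_ ?_⟩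
  · exact max_le le_rfl (by linarith)
  · exact mul_le_mul_of_nonneg_left (min_le_left _ _) hc.le
  · calc c' * (n * 15 ^ 4) ≤ (c * (1 / (n * 15 ^ 4))) * (n * 15 ^ 4) := by
          refine mul_le_mul_of_nonneg_right ?_ (by positivity)
          exact mul_le_mul_of_nonneg_left (min_le_right _ _) hc.le
      _ = c := by field_simp

end Vale.Agent.P088.R2.H269
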